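import Vale.Agent.Lib.P174.Defs
import Vale.Agent.Lib.P174.Abelian

open Vale.Agent.Lib.P174

universe u

/-- Howie's conjecture for `G` follows from Howie's conjecture for the finitely generated subgroups
of `G` admitting no nontrivial homomorphism to `ℤ` (that is, those with finite abelianization). -/
theorem Vale.Agent.Results.P174.BReductionFiniteAbelianization.result
    {G : Type u} [Group G]
    (h : ∀ S : Subgroup G, S.FG → (∀ χ : S →* Multiplicative ℤ, χ = 1) → HowieProperty S) :
    HowieProperty G :=
  howie_of_top h
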