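import Vale.Agent.Lib.P174.Defs
import Vale.Agent.Lib.P174.Abelian

open Vale.Agent.Lib.P174

universe u

/-- Fix a prime `p`. If all systems nonsingular modulo `p` are solvable over every finitely
generated subgroup of `G` admitting no nontrivial homomorphism to `ℤ/p`, then all systems
nonsingular modulo `p` are solvable over `G`. -/
theorem Vale.Agent.Results.P174.CReductionModP.result
    (p : ℕ) [Fact p.Prime] {G : Type u} [Group G]
    (h : ∀ S : Subgroup G, S.FG → (∀ χ : S →* Multiplicative (ZMod p), χ = 1) →
      HowiePropertyMod p S) :
    HowiePropertyMod p G :=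
  howieMod_of_top h
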