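import Vale.Agent.Lib.P174.Defs
import Vale.Agent.Lib.P174.Abelian

open Vale.Agent.Lib.P174

universe u

/-- Unconditional: if every finitely generated subgroup of `G` either admits a nontrivial
homomorphism to `ℤ` or is abelian (for instance if `G` has an abelian normal subgroup with locally
indicable quotient), then every nonsingular finite system over `G` is solvable. -/
theorem Vale.Agent.Results.P174.DAbelianByLocallyIndicable.result
    {G : Type u} [Group G]
    (h : ∀ S : Subgroup G, S.FG → (∀ χ : S →* Multiplicative ℤ, χ = 1) →
      ∀ a b : S, a * b = b * a) :
    HowieProperty G :=
  howie_of_fg_abelian h
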