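import Vale.Agent.Results.P174.AExtensionLocallyIndicable
import Vale.Agent.Results.P174.BReductionFiniteAbelianization
import Vale.Agent.Results.P174.CReductionModP
import Vale.Agent.Results.P174.DAbelianByLocallyIndicable

open Vale.Agent.Lib.P174

universe u

/-- Extension closure, the reduction to subgroups with finite abelianization, its version modulo a
prime, and the unconditional class of groups whose finitely generated subgroups with no map onto
`ℤ` are abelian. -/
theorem Vale.Agent.Results.P174.A0Conj.result :
    (∀ {G : Type u} [Group G] (N : Subgroup G) [N.Normal],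
      LocallyIndicable (G ⧸ N) → HowieProperty N → HowieProperty G) ∧
    (∀ {G : Type u} [Group G],
      (∀ S : Subgroup G, S.FG → (∀ χ : S →* Multiplicative ℤ, χ = 1) → HowieProperty S) →
        HowieProperty G) ∧
    (∀ (p : ℕ) [Fact p.Prime] {G : Type u} [Group G],
      (∀ S : Subgroup G, S.FG → (∀ χ : S →* Multiplicative (ZMod p), χ = 1) →
        HowiePropertyMod p S) → HowiePropertyMod p G) ∧
    (∀ {G : Type u} [Group G],
      (∀ S : Subgroup G, S.FG → (∀ χ : S →* Multiplicative ℤ, χ = 1) →
        ∀ a b : S, a * b = b * a) → HowieProperty G) :=
  ⟨@Vale.Agent.Results.P174.AExtensionLocallyIndicable.result,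
    @Vale.Agent.Results.P174.BReductionFiniteAbelianization.result,
    @Vale.Agent.Results.P174.CReductionModP.result,
    @Vale.Agent.Results.P174.DAbelianByLocallyIndicable.result⟩
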