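import Vale.Agent.Lib.P174.Defs
import Vale.Agent.Lib.P174.Abelian

open Vale.Agent.Lib.P174

universe u

/-- If `N` is a normal subgroup of `G` with `G ⧸ N` locally indicable and every nonsingular finite
system over `N` is solvable, then every nonsingular finite system over `G` is solvable. -/
theorem Vale.Agent.Results.P174.AExtensionLocallyIndicable.result
    {G : Type u} [Group G] (N : Subgroup G) [N.Normal]
    (hQ : LocallyIndicable (G ⧸ N)) (hN : HowieProperty N) : HowieProperty G :=
  howie_extension N hQ hN
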